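import Vale.Agent.P207.N3.H546.MassR
import Vale.Agent.P207.N3.H646.MassI

/-!
# P207, line N3, row R19 (MASS): the mass inequality over `M`
-/

set_option linter.unusedSectionVars false
set_option maxSynthPendingDepth 3

open scoped Manifold ContDiff ENNReal Topology Matrix
open Bundle MeasureTheory Set Filter Metric

noncomputable section

namespace Vale.Agent.P207.N3.H546

open Vale.Agent.P255 (RMetric)
open Vale.Agent.P207 Vale.Agent.P207.Q Vale.Agent.P207.Q.H130 Vale.Agent.P207.Q.H892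
open Vale.Agent.P207.N3.H76 (pk tl e0 sg)
open Vale.Agent.P207.N3.H722 (GeoIn HessIn)

variable {Γ X B : Type} [Group Γ] [MetricSpace X] [ProperSpace X] [MulAction Γ X]
  [IsIsometricSMul Γ X] [TopologicalSpace B] [CompactSpace B] [T2Space B] [MulAction Γ B]
  [ContinuousConstSMul Γ B] [MeasurableSpace B] [BorelSpace B] {L : Leaf Γ X B}

/-- the mass inequality from `DirIn` -/
theorem mass_of_dirIn {A : Area L} {G : E3 → ℝ} (I : DirIn L A G) (hG : Measurable G)
    (hG0 : ∀ v, ‖v‖ = 1 → 0 ≤ G v) :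
    ENNReal.ofReal (4 * Real.pi * ((∫ z in ball (0 : E3) 1, G (‖z‖⁻¹ • z)) /
      volume.real (ball (0 : E3) 1))) ≤ A.ν univ :=
  H646.mass I hG hG0

variable {M : Type} [TopologicalSpace M] [ChartedSpace (EV 3) M] [IsManifold 𝓘(ℝ, EV 3) ∞ M]
  [CompactSpace M] [T2Space M] {g : RMetric (EV 3) M}
  {V : Type} [NormedAddCommGroup V] [NormedSpace ℝ V] [FiniteDimensional ℝ V]

/-- **R19: the mass inequality over `M`.** -/
theorem mass_le {Φ : ℝ → Fr g → Fr g}
    (hΦ : IsHorFlow g (Pi.single 0 1) Φ) {fr : X → Fr g} (O : Over Φ L fr) (I : GeoIn L V)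
    {D : MDat g Φ} {h : ℝ} (R : RDat D h) {A : Area L} {W : Metr L}
    (hU : ∀ x, W.U x = H618.cl (D.U (fr x))) (Hs : HessIn I W)
    (hs : ∀ x, A.s x 0 = I.r₀ ^ 2 * Real.exp (R.r ((fr x).ut 0)))
    (hE : ∀ (x y : X) (v : E3), I.S.ft x = I.S.ft y → I.E x e0 = I.E y v →
      (fr x).pt = (fr y).pt ∧ (fr x).e 0 = Lf (fr y) v)
    {x₀ : X} (hx₀ : ∀ ξ, I.b ξ (I.S.ft x₀) = 0) :
    ENNReal.ofReal (4 * Real.pi *
      sphAvg g (fun v => Real.exp (R.r v) / D.S v) (fr x₀).pt) ≤ A.ν univ := by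
  have hpos : ∀ p : UT g, 0 < D.S p := by
    intro p
    obtain ⟨f, rfl⟩ := exists_frame_ut p
    exact D.S_pos hΦ f
  have hc : Continuous fun v => Real.exp (R.r v) / D.S v :=
    (Real.continuous_exp.comp R.r.continuous).div D.S.continuous fun p => (hpos p).ne'
  have hnn : ∀ v : UT g, 0 ≤ Real.exp (R.r v) / D.S v := fun v =>
    div_nonneg (Real.exp_pos _).le (hpos v).le
  have h1 := mass_of_dirIn (dirIn hΦ O I R hU Hs hs hE hx₀) (measurable_GF hc _)
    fun v _ => GF_nonneg hnn _ v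
  rw [sphAvg_eq_GF]
  refine le_trans (le_of_eq ?_) h1
  congr 3
  refine setIntegral_congr_fun measurableSet_ball fun v _ => ?_
  by_cases hv : v = 0
  · subst hv
    simp only [norm_zero, inv_zero, zero_smul]
  · exact (GF_smul _ _ v (inv_pos.2 (norm_pos_iff.2 hv))).symm

end Vale.Agent.P207.N3.H546
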