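import Vale.Agent.P207.N3.H546.FinFr
import Vale.Agent.P207.N3.Geo.Over

/-!
# P207, line N3: rows R0, R17 and R21

* `exists_MDat`: the unstable Riccati solution of a closed negatively curved 3-manifold.
* `exists_psi17`: the transfer function if the entropies are equal.
* `const_of_mass`: the final inequality.
-/

open scoped Manifold ContDiff ENNReal Topology Matrix
open Bundle MeasureTheory Set Filter

set_option maxSynthPendingDepth 3
set_option linter.unusedSectionVars false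

noncomputable section

namespace Vale.Agent.P207.N3.H546

open Vale.Agent.P255 (RMetric coefIn Gam Riem IsGeo Metric trans coefL)
open Vale.Agent.P207 Vale.Agent.P207.Q Vale.Agent.P207.Q.H545 Vale.Agent.P207.Q.H892
open Vale.Agent.P207.Q.H413 Vale.Agent.P207.Q.H717
open Vale.Agent.P207.Q.H130 (IsUR Km)
open Vale.Agent.P207F (ConstCurvature)

variable {M : Type} [TopologicalSpace M] [ChartedSpace (EV 3) M] [IsManifold 𝓘(ℝ, EV 3) ∞ M]
  [CompactSpace M] [T2Space M] {g : RMetric (EV 3) M} [Nonempty (Fr g)]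

/-- an entry of a nonnegative symmetric `2 × 2` matrix which is at most `Lam` -/
theorem entry_le {u v w lam Lam : ℝ} (hl : 0 < lam)
    (hlo : ∀ x y : ℝ, lam * (x ^ 2 + y ^ 2) ≤ u * x ^ 2 + 2 * v * (x * y) + w * y ^ 2)
    (hup : ∀ x y : ℝ, u * x ^ 2 + 2 * v * (x * y) + w * y ^ 2 ≤ Lam * (x ^ 2 + y ^ 2)) :
    |u| ≤ Lam ∧ |v| ≤ Lam ∧ |w| ≤ Lam := by
  have a1 := hlo 1 0
  have a2 := hlo 0 1
  have a3 := hlo 1 1
  have a4 := hlo 1 (-1)
  have b1 := hup 1 0
  have b2 := hup 0 1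
  have b3 := hup 1 1
  have b4 := hup 1 (-1)
  refine ⟨abs_le.2 ⟨?_, ?_⟩, abs_le.2 ⟨?_, ?_⟩, abs_le.2 ⟨?_, ?_⟩⟩ <;> nlinarith

/-- **R0.** -/
theorem exists_MDat [ConnectedSpace M] (hN : NegCurvature g) :
    Nonempty (MDat g ((horFlows g).Φ 0)) := by
  let _ : MeasurableSpace M := borel M
  have : BorelSpace M := ⟨rfl⟩
  obtain ⟨⟨φ, hφ, -⟩, ⟨μ, hμ, -⟩, h3⟩ := (P207.main (by norm_num : 2 ≤ 3)).1 g
  obtain ⟨m, hm, -⟩ := h3 μ hμ
  obtain ⟨hsc, hne, hmp, mP, hP, hprob, hop⟩ := exists_setting hφ hμ hm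
  obtain ⟨lam, Lam, B, U, hl, hle, hU, hUc, hup⟩ := exists_isUR hP hφ hmp hN
  have hΦ := (horFlows g).hor 0
  have hsymm : ∀ f, U f 1 0 = U f 0 1 := fun f => by
    have := congrFun (congrFun (hU.symm hΦ f) 0) 1
    simpa [Matrix.transpose_apply] using this
  have hlo' : ∀ f (x y : ℝ), lam * (x ^ 2 + y ^ 2) ≤ U f 0 0 * x ^ 2 + 2 * U f 0 1 * (x * y) +
      U f 1 1 * y ^ 2 := fun f x y => by
    have h1 := hU.lo f ![x, y]
    simp only [dotProduct, Matrix.mulVec, Fin.sum_univ_two, Matrix.cons_val_zero,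
      Matrix.cons_val_one, hsymm] at h1
    linarith
  have hup' : ∀ f (x y : ℝ), U f 0 0 * x ^ 2 + 2 * U f 0 1 * (x * y) +
      U f 1 1 * y ^ 2 ≤ Lam * (x ^ 2 + y ^ 2) := fun f x y => by
    have h1 := hup f ![x, y]
    simp only [dotProduct, Matrix.mulVec, Fin.sum_univ_two, Matrix.cons_val_zero,
      Matrix.cons_val_one, hsymm] at h1
    linarith
  have hU' : IsUR ((horFlows g).Φ 0) lam Lam U := by
    refine ⟨hU.pos, hU.lo, fun f i j => ?_, hU.ric⟩
    obtain ⟨e1, e2, e3⟩ := entry_le hl (hlo' f) (hup' f)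
    match i, j with
    | 0, 0 => exact e1
    | 0, 1 => exact e2
    | 1, 0 => rw [hsymm]; exact e2
    | 1, 1 => exact e3
  obtain ⟨t, ht, -⟩ := hU.exists_t hΦ (fun i => hUc i i) hφ
  obtain ⟨S, hS⟩ := exists_detS hU hUc
  exact ⟨⟨lam, Lam, U, continuous_pi fun i => continuous_pi fun j => hUc i j, hU', hup, t, ht,
    S, hS⟩⟩

theorem MDat.ent_cont {Φ : ℝ → Fr g → Fr g} (D : MDat g Φ) (i j : Fin 2) :
    Continuous fun f => D.U f i j :=
  (continuous_apply j).comp ((continuous_apply i).comp D.cont)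

/-- the Jacobian bounds of `t` -/
theorem MDat.jac {φ : ℝ → UT g → UT g} (hφ : IsGeoFlow g φ) (D : MDat g ((horFlows g).Φ 0)) :
    JacUpper φ D.t ∧ JacLower φ D.t := by
  have hΦ := (horFlows g).hor 0
  have hl := D.ur.pos
  have hL : 0 < D.Lam := by
    obtain ⟨f⟩ := (inferInstance : Nonempty (Fr g))
    have h1 := D.ur.lo f ![1, 0]
    have h2 := D.hi f ![1, 0]
    have h3 : (![1, 0] : Fin 2 → ℝ) ⬝ᵥ ![1, 0] = 1 := by
      simp [dotProduct, Fin.sum_univ_two]
    rw [h3] at h1 h2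
    linarith
  exact H129.jac_upper_lower hΦ hφ hl hL (fun f i j r => D.ur.ric f r i j)
    (fun f => D.ur.symm hΦ f) D.ur.lo D.hi D.t_eq

/-- **R17.** Equality of the entropies: `h > 0`, `∫ t dm = h`, and the transfer function. -/
theorem exists_psi17 [ConnectedSpace M] [MeasurableSpace M] [BorelSpace M] (hN : NegCurvature g)
    {φ : ℝ → UT g → UT g} (hφ : IsGeoFlow g φ) {μ : Measure M} (hμ : IsRiemVol g μ)
    {m : Measure (UT g)} (hm : IsLiouville g μ m)
    (heq : ksEntropy m (φ 1) = topEntropy (φ 1)) (D : MDat g ((horFlows g).Φ 0)) :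
    0 < (topEntropy (φ 1)).toReal ∧ ∫ p, D.t p ∂m = (topEntropy (φ 1)).toReal ∧
      ∃ ψ : UT g → ℝ, Measurable ψ ∧ Integrable ψ m ∧
        ∀ T, ∀ᵐ v ∂m, ψ (φ T v) - ψ v =
          ∫ s in (0 : ℝ)..T, (D.t (φ s v) - (topEntropy (φ 1)).toReal) := by
  obtain ⟨hJu, hJl⟩ := MDat.jac hφ D
  obtain ⟨-, hpos, hint⟩ := integral_eq_of_entropy_eq (by norm_num : 2 ≤ 3) hφ hN hμ hm heq
    D.t.continuous hJu hJl
  obtain ⟨ψ, h1, h2, h3, -⟩ := exists_psi (by norm_num : 2 ≤ 3) hφ hN hμ hm heq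
    D.t.continuous hJu hJl
  exact ⟨hpos, hint, ψ, h1, h2, h3⟩

/-- `∫ t dm = h`, from the cohomological equation -/
theorem RDat.integral_t [MeasurableSpace M] [BorelSpace M]
    {φ : ℝ → UT g → UT g} (hφ : IsGeoFlow g φ) {μ : Measure M} (hμ : IsRiemVol g μ)
    {m : Measure (UT g)} (hm : IsLiouville g μ m) {D : MDat g ((horFlows g).Φ 0)} {h : ℝ}
    (R : RDat D h) : ∫ p, D.t p ∂m = h := by
  have := hm.1
  have := compactSpace_UT g
  have hΦ := (horFlows g).hor 0
  have hF : MFlow m φ := Area.mflow (by norm_num : 1 ≤ 3) hφ hμ hm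
  set c := ∫ p, D.t p ∂m with hc
  have hcoc : ∀ p, R.r (φ 1 p) - R.r p = h - ∫ s in (0 : ℝ)..1, D.t (φ s p) := by
    intro p
    obtain ⟨f, rfl⟩ := exists_frame_ut p
    have h1 := R.coc f 1
    simp only [hΦ.ut_eq hφ, mul_one] at h1
    exact h1
  have hti : Integrable D.t m :=
    D.t.continuous.integrable_of_hasCompactSupport (HasCompactSupport.of_compactSpace _)
  have hri : Integrable R.r m :=
    R.r.continuous.integrable_of_hasCompactSupport (HasCompactSupport.of_compactSpace _)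
  have hri' : Integrable (fun p => R.r (φ 1 p)) m := by
    have h1 := (hF.mp 1).integrable_comp_of_integrable hri
    exact h1
  have h0 : ∫ x, (D.t x - c) ∂m = 0 := by
    rw [integral_sub hti (integrable_const _), integral_const, probReal_univ]
    simp [hc]
  have h2 := hF.integral_WW (w := fun p => D.t p - c) (K := ‖D.t‖ + |c|)
    (D.t.continuous.measurable.sub_const c)
    (fun p => (abs_sub _ _).trans (add_le_add (D.t.norm_coe_le_norm p) le_rfl)) h0 1
  have h3 : ∀ p, WW φ (fun p => D.t p - c) 1 p = (h - c) - (R.r (φ 1 p) - R.r p) := by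
    intro p
    rw [hcoc]
    unfold WW
    have hcont : Continuous fun s : ℝ => D.t (φ s p) :=
      D.t.continuous.comp (hφ.continuous.comp (Continuous.prodMk_left p))
    rw [intervalIntegral.integral_sub (hcont.intervalIntegrable _ _)
      intervalIntegrable_const, intervalIntegral.integral_const]
    simp
  simp_rw [h3] at h2
  have hsub : Integrable (fun p => R.r (φ 1 p) - R.r p) m := hri'.sub hri
  rw [integral_sub (integrable_const _) hsub, integral_sub hri' hri, integral_const,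
    probReal_univ, hF.integral_comp 1 R.r.continuous.aestronglyMeasurable] at h2
  simp at h2
  linarith

/-- **R21, the final inequality.** -/
theorem const_of_mass [ConnectedSpace M] [MeasurableSpace M] [BorelSpace M] (_hN : NegCurvature g)
    {φ : ℝ → UT g → UT g} (hφ : IsGeoFlow g φ) {μ : Measure M} (hμ : IsRiemVol g μ)
    {m : Measure (UT g)} (hm : IsLiouville g μ m) (D : MDat g ((horFlows g).Φ 0)) {h : ℝ}
    (hh : 0 < h) (R : RDat D h)
    (hF : ∀ p : M, sphAvg g (fun v => Real.exp (R.r v) / D.S v) p ≤ 1 / h) :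
    ∃ κ, ConstCurvature g κ := by
  obtain ⟨hsc, hne, hmp, mP, hP, hprob, hop⟩ := exists_setting hφ hμ hm
  have hut : Continuous fun f : Fr g => f.ut 0 := (isBdl_ut g).cont
  have hSpos : ∀ p, D.S p ≠ 0 := by
    intro p
    obtain ⟨f, rfl⟩ := exists_frame_ut p
    rw [R.norm]
    exact (Real.exp_pos _).ne'
  have hac : Continuous fun p => Real.exp (R.r p) / D.S p :=
    (Real.continuous_exp.comp R.r.continuous).div D.S.continuous hSpos
  have hF2 := integral_le_of_sphAvg hμ hm hac (c := 1 / h) (by positivity) hF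
  have hpush : ∀ a : UT g → ℝ, Continuous a → ∫ f : Fr g, a (f.ut 0) ∂mP = ∫ p, a p ∂m := by
    intro a ha
    rw [← hP.ut.map_eq]
    exact (integral_map hP.ut.measurable.aemeasurable ha.aestronglyMeasurable).symm
  refine ⟨_, const_of_frames (mP := mP) hP.rot D.ur (MDat.ent_cont D)
    (ρ := fun f => R.r (f.ut 0)) (R.r.continuous.comp hut) (h := h) (fun f => ?_) ?_ ?_⟩
  · rw [← D.S_eq, R.norm, Real.log_exp]
  · rw [← RDat.integral_t hφ hμ hm R, ← hpush _ D.t.continuous]
    exact integral_congr_ae (Eventually.of_forall fun f => (D.t_eq f).symm)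
  · refine le_trans (le_of_eq ?_) hF2
    rw [← hpush _ hac]
    exact integral_congr_ae (Eventually.of_forall fun f => by simp only [D.S_eq])

end Vale.Agent.P207.N3.H546
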