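import Vale.Agent.P207.N3.H546.UR3

/-!
# P207, line N3, package P9: the final step

`U` = the continuous unstable Riccati tensor on the frame bundle, `S = U + U ∘ flip`,
`d = det S` as a function on the unit tangent bundle, `log d (v) = r (v) + r (-v)`,
`h = h_top = h_L`.  If at every point `x` the spherical average of `e^r / d` is at most `1 / h`,
the curvature is constant.
-/

open scoped Manifold ContDiff ENNReal Topology Matrix
open Bundle MeasureTheory Set Filter

set_option maxSynthPendingDepth 3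
set_option linter.unusedSectionVars false

noncomputable section

namespace Vale.Agent.P207.N3.H546

open Vale.Agent.P255 (RMetric coefIn Gam Riem IsGeo Metric trans coefL)
open Vale.Agent.P207 Vale.Agent.P207.Q Vale.Agent.P207.Q.H545 Vale.Agent.P207.Q.H892
open Vale.Agent.P207.Q.H413 Vale.Agent.P207.Q.H717
open Vale.Agent.P207.Q.H791 (RicC)
open Vale.Agent.P207.Q.H130 (IsUR Km)
open Vale.Agent.P207F (ConstCurvature)

variable {M : Type} [TopologicalSpace M] [ChartedSpace (EV 3) M] [IsManifold 𝓘(ℝ, EV 3) ∞ M]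
  [CompactSpace M] [T2Space M] {g : RMetric (EV 3) M}

/-- a bound of all spherical averages bounds the integral against the Liouville measure -/
theorem integral_le_of_sphAvg [MeasurableSpace M] [BorelSpace M] [SecondCountableTopology M]
    {μ : Measure M} {m : Measure (UT g)} (hμ : IsRiemVol g μ) (hm : IsLiouville g μ m)
    {a : UT g → ℝ} (ha : Continuous a) {c : ℝ} (hc : 0 ≤ c) (h : ∀ x, sphAvg g a x ≤ c) :
    ∫ p, a p ∂m ≤ c := by
  have := hμ.isFiniteMeasure
  rw [hm.2 a ha]
  refine div_le_of_le_mul₀ measureReal_nonneg hc ?_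
  by_cases hi : Integrable (sphAvg g a) μ
  · calc ∫ x, sphAvg g a x ∂μ ≤ ∫ _, c ∂μ := integral_mono hi (integrable_const c) h
      _ = c * μ.real univ := by rw [integral_const, smul_eq_mul, mul_comm]
  · rw [integral_undef hi]
    positivity

section Fix

variable [Nonempty (Fr g)]

/-- the unstable tensor as a matrix valued function -/
theorem exists_isUR [ConnectedSpace M] [MeasurableSpace M] [BorelSpace M]
    [SecondCountableTopology M] {m : Measure (UT g)} {mP : Measure (Fr g)}
    {φ : ℝ → UT g → UT g} (hP : IsMP m mP) (hφ : IsGeoFlow g φ)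
    (hmp : ∀ t, MeasurePreserving (φ t) m m) [IsProbabilityMeasure mP] [mP.IsOpenPosMeasure]
    (hneg : NegCurvature g) :
    ∃ (lam Lam B : ℝ) (U : Fr g → Matrix (Fin 2) (Fin 2) ℝ), 0 < lam ∧ lam ≤ Lam ∧
      IsUR ((horFlows g).Φ 0) lam B U ∧ (∀ i j, Continuous fun f => U f i j) ∧
      ∀ f (x : Fin 2 → ℝ), x ⬝ᵥ (U f *ᵥ x) ≤ Lam * (x ⬝ᵥ x) := by
  obtain ⟨lam, Lam, D, hl, hle, hsym, hlo, hup, hric⟩ :=
    exists_U3 (hP := hP) (hφ := hφ) (hmp := hmp) hneg
  let U : Fr g → Matrix (Fin 2) (Fin 2) ℝ := fun f => Matrix.of fun i j => D i j f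
  have hUa : ∀ f i j, U f i j = D i j f := fun _ _ _ => rfl
  have hform : ∀ f (x : Fin 2 → ℝ), x ⬝ᵥ (U f *ᵥ x) =
      D 0 0 f * x 0 ^ 2 + 2 * D 0 1 f * (x 0 * x 1) + D 1 1 f * x 1 ^ 2 := fun f x => by
    simp only [dotProduct, Matrix.mulVec, Fin.sum_univ_two, hUa, hsym]
    ring
  have hsq : ∀ x : Fin 2 → ℝ, x ⬝ᵥ x = x 0 ^ 2 + x 1 ^ 2 := fun x => by
    simp only [dotProduct, Fin.sum_univ_two]
    ring
  have hKm : ∀ f i j, (cK hP hφ hmp).K i j f = Km g f i j := by
    intro f i j
    match i, j with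
    | 0, 0 => exact cK_K00 f
    | 0, 1 => exact cK_K01 f
    | 1, 1 => exact cK_K11 f
    | 1, 0 =>
      have e := cK_K10 (hP := hP) (hφ := hφ) (hmp := hmp) f
      refine e.trans ?_
      have := congrFun (congrFun (H130.Km_symm f) 0) 1
      exact this.symm
  refine ⟨lam, Lam, ∑ i, ∑ j, ‖D i j‖, U, hl, hle, ⟨hl, fun f x => ?_, fun f i j => ?_,
    fun f r i j => ?_⟩, fun i j => (D i j).continuous, fun f x => ?_⟩
  · rw [hform, hsq]; exact hlo f (x 0) (x 1)
  · exact ((D i j).norm_coe_le_norm f).trans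
      ((Finset.single_le_sum (f := fun j => ‖D i j‖) (fun j _ => norm_nonneg _)
            (Finset.mem_univ j)).trans
        (Finset.single_le_sum (f := fun i => ∑ j, ‖D i j‖)
            (fun i _ => Finset.sum_nonneg fun j _ => norm_nonneg _) (Finset.mem_univ i)))
  · refine (hric i j f r).congr_deriv ?_
    rw [← hKm, Matrix.mul_apply]
    rfl
  · rw [hform, hsq]; exact hup f (x 0) (x 1)

/-- **The final step on the frame bundle.** -/
theorem const_of_frames [MeasurableSpace M] [BorelSpace M] [SecondCountableTopology M]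
    {mP : Measure (Fr g)} [IsProbabilityMeasure mP] [mP.IsOpenPosMeasure]
    (hrot : ∀ A : Fr.On 3, MeasurePreserving (Fr.rot A : Fr g → Fr g) mP mP)
    {lam B : ℝ} {U : Fr g → Matrix (Fin 2) (Fin 2) ℝ} (hU : IsUR ((horFlows g).Φ 0) lam B U)
    (hUc : ∀ i j, Continuous fun f => U f i j) {ρ : Fr g → ℝ} (hρ : Continuous ρ) {h : ℝ}
    (hlog : ∀ f, Real.log (U f + U (flipF f)).det = ρ f + ρ (flipF f))
    (hint : ∫ f, (U f).trace ∂mP = h)
    (hF : ∫ f, Real.exp (ρ f) / (U f + U (flipF f)).det ∂mP ≤ 1 / h) :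
    ConstCurvature g ((h / 2) ^ 2) := by
  have hΦ := (horFlows g).hor 0
  have hsymm : ∀ f, U f 1 0 = U f 0 1 := fun f => by
    have := congrFun (congrFun (hU.symm hΦ f) 0) 1
    simpa [Matrix.transpose_apply] using this
  let u : C(Fr g, ℝ) := ⟨fun f => U f 0 0, hUc 0 0⟩
  let v : C(Fr g, ℝ) := ⟨fun f => U f 0 1, hUc 0 1⟩
  let w : C(Fr g, ℝ) := ⟨fun f => U f 1 1, hUc 1 1⟩
  have hdet : ∀ f, (U f + U (flipF f)).det = (u f + u (flipF f)) * (w f + w (flipF f)) -
      (v f + v (flipF f)) * (v f + v (flipF f)) := fun f => by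
    rw [Matrix.det_fin_two]
    simp only [Matrix.add_apply, hsymm]
    rfl
  have htr : ∀ f, (U f).trace = u f + w f := fun f => by
    rw [Matrix.trace_fin_two]; rfl
  have hform : ∀ f (x y : ℝ), lam * (x ^ 2 + y ^ 2) ≤ u f * x ^ 2 + 2 * v f * (x * y) +
      w f * y ^ 2 := fun f x y => by
    have h1 := hU.lo f ![x, y]
    simp only [dotProduct, Matrix.mulVec, Fin.sum_univ_two, Matrix.cons_val_zero,
      Matrix.cons_val_one, hsymm] at h1
    have e1 : u f = U f 0 0 := rfl
    have e2 : v f = U f 0 1 := rfl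
    have e3 : w f = U f 1 1 := rfl
    rw [e1, e2, e3]
    linarith
  have hl := hU.pos
  have hpos : ∀ f, 0 < u f + w f := fun f => by
    have h1 := hform f 1 0
    have h2 := hform f 0 1
    nlinarith
  have hDpos : ∀ f, 0 < (u f + u (flipF f)) * (w f + w (flipF f)) -
      (v f + v (flipF f)) * (v f + v (flipF f)) := by
    intro f
    have h0 : ∀ a b : ℝ, 2 * lam * (a ^ 2 + b ^ 2) ≤ (u f + u (flipF f)) * a ^ 2 +
        2 * (v f + v (flipF f)) * (a * b) + (w f + w (flipF f)) * b ^ 2 := by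
      intro a b
      have h1 := hform f a b
      have h2 := hform (flipF f) a b
      linarith
    set A := u f + u (flipF f)
    set B' := v f + v (flipF f)
    set E := w f + w (flipF f)
    have hA : 2 * lam ≤ A := by have := h0 1 0; nlinarith
    have h3 := h0 (-B') A
    have h4 : A * (-B') ^ 2 + 2 * B' * (-B' * A) + E * A ^ 2 = A * (A * E - B' * B') := by ring
    rw [h4] at h3
    have h5 : 0 < 2 * lam * ((-B') ^ 2 + A ^ 2) := by
      have : 0 < A ^ 2 := by nlinarith
      nlinarith [sq_nonneg B']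
    exact (mul_pos_iff_of_pos_left (by linarith)).1 (h5.trans_le h3)
  have hmp := hrot flipO
  have hσ : ∀ F : Fr g → ℝ, Continuous F → ∫ x, F (flipF x) ∂mP = ∫ x, F x ∂mP := by
    intro F _
    have h1 := hmp.integral_comp' (f := (MeasurableEquiv.mk
      ⟨flipF, flipF, flipF_flipF, flipF_flipF⟩ continuous_flipF.measurable
        continuous_flipF.measurable : Fr g ≃ᵐ Fr g)) (g := F)
    exact h1
  have hint' : ∫ x, (u x + w x) ∂mP = h := by
    rw [← hint]; exact integral_congr_ae (Eventually.of_forall fun f => (htr f).symm)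
  have hF' : ∫ x, Real.exp (ρ x) / ((u x + u (flipF x)) * (w x + w (flipF x)) -
      (v x + v (flipF x)) * (v x + v (flipF x))) ∂mP ≤ 1 / h := by
    refine le_trans (le_of_eq ?_) hF
    exact integral_congr_ae (Eventually.of_forall fun f => by simp only [hdet])
  have hS := S_const (m := mP) (σ := (flipF : Fr g → Fr g)) continuous_flipF flipF_flipF hσ
    (u := u) (v := v) (w := w) (r := ρ) u.continuous v.continuous w.continuous hρ hpos hDpos
    (fun f => by rw [← hdet, hlog]) hint' hF'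
  have hh : h ≠ 0 := by
    intro h0
    obtain ⟨f⟩ := (inferInstance : Nonempty (Fr g))
    have h1 := (hS f).1
    have h2 := (hS f).2.2
    have h3 := hpos f
    have h4 := hpos (flipF f)
    rw [h0] at h1 h2
    linarith
  have hX : ∀ t f, flipF ((horFlows g).Φ 0 t f) = (horFlows g).Φ 0 (-t) (flipF f) := by
    intro t f
    have := flip_flw (horFlows g) .X t f
    simp only [WD.sgn_X, neg_one_mul] at this
    exact this
  have k0 : ∀ f, Km g f 0 0 = Ef g 2 2 f := fun f => (Ef_22 f).symm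
  have k1 : ∀ f, Km g f 0 1 = (-Ef g 1 2) f := fun f => by
    rw [ContinuousMap.neg_apply, Ef_12]; rfl
  have k2 : ∀ f, Km g f 1 1 = Ef g 1 1 f := fun f => (Ef_11 f).symm
  have hR : RicC ((horFlows g).Φ 0) u v w (Ef g 2 2) (-Ef g 1 2) (Ef g 1 1) := by
    refine ⟨fun p r => ?_, fun p r => ?_, fun p r => ?_⟩
    · refine (hU.ric p r 0 0).congr_deriv ?_
      rw [k0, Matrix.mul_apply, Fin.sum_univ_two, hsymm]
      rfl
    · refine (hU.ric p r 0 1).congr_deriv ?_
      rw [k1, Matrix.mul_apply, Fin.sum_univ_two]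
      rfl
    · refine (hU.ric p r 1 1).congr_deriv ?_
      rw [k2, Matrix.mul_apply, Fin.sum_univ_two, hsymm]
      rfl
  have hφ0 : ∀ f, (horFlows g).Φ 0 0 f = f := fun f => ((horFlows g).hor 0).zero f
  have hfin := const_of_S hR hφ0 hX (fun x => Ef_flip_22 x) (fun x => by
    rw [ContinuousMap.neg_apply, ContinuousMap.neg_apply, Ef_flip_12]) (fun x => Ef_flip_11 x)
    hh hS
  refine const_of_Rf (i₀ := 0) (i₁ := 1) (by decide) fun f => ?_
  have h1 := (hfin f).2.1
  rw [Ef_22] at h1
  linarith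

/-- `det (U + U ∘ flip)` as a continuous function on the unit tangent bundle -/
theorem exists_detS {lam B : ℝ} {U : Fr g → Matrix (Fin 2) (Fin 2) ℝ}
    (hU : IsUR ((horFlows g).Φ 0) lam B U) (hUc : ∀ i j, Continuous fun f => U f i j) :
    ∃ d : C(UT g, ℝ), ∀ f : Fr g, d (f.ut 0) = (U f + U (flipF f)).det := by
  have hΦ := (horFlows g).hor 0
  have hc : Continuous fun f : Fr g => (U f + U (flipF f)).det := by
    simp only [Matrix.det_fin_two, Matrix.add_apply]
    have hf := fun i j => (hUc i j).comp (continuous_flipF (g := g))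
    exact (((hUc 0 0).add (hf 0 0)).mul ((hUc 1 1).add (hf 1 1))).sub
      (((hUc 0 1).add (hf 0 1)).mul ((hUc 1 0).add (hf 1 0)))
  exact H130.exists_desc (g := g) ⟨_, hc⟩ fun A hA p =>
    WD.det_inv (fun A hA f => hU.rot hΦ hA f) hA p

end Fix

/-- **The final step (P9).** For a closed negatively curved 3-manifold with `h_L = h_top = h`:
if there is a continuous function `r` on the unit tangent bundle with
`log det S (v) = r (v) + r (-v)` (`S = U + U ∘ flip`, `U` the unstable Riccati tensor) such that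
all spherical averages of `e^r / det S` are at most `1 / h`, the curvature is constant. -/
theorem core_of_final [ConnectedSpace M] [MeasurableSpace M] [BorelSpace M]
    (hneg : NegCurvature g) {φ : ℝ → UT g → UT g} {μ : Measure M} {m : Measure (UT g)}
    (hφ : IsGeoFlow g φ) (hμ : IsRiemVol g μ) (hm : IsLiouville g μ m)
    (heq : ksEntropy m (φ 1) = topEntropy (φ 1))
    (hyp : ∀ [Nonempty (Fr g)] (lam B : ℝ) (U : Fr g → Matrix (Fin 2) (Fin 2) ℝ) (d : C(UT g, ℝ)),
      IsUR ((horFlows g).Φ 0) lam B U → (∀ i j, Continuous fun f => U f i j) →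
      (∀ f : Fr g, d (f.ut 0) = (U f + U (flipF f)).det) →
      ∃ r : UT g → ℝ, Continuous r ∧
        (∀ f : Fr g, Real.log (d (f.ut 0)) = r (f.ut 0) + r ((flipF f).ut 0)) ∧
        ∀ x, sphAvg g (fun p => Real.exp (r p) / d p) x ≤ 1 / (topEntropy (φ 1)).toReal) :
    ∃ κ, ConstCurvature g κ := by
  obtain ⟨hsc, hne, hmp, mP, hP, hprob, hop⟩ := exists_setting hφ hμ hm
  obtain ⟨lam, Lam, B, U, hl, hle, hU, hUc, hup⟩ := exists_isUR hP hφ hmp hneg
  obtain ⟨d, hd⟩ := exists_detS hU hUc
  obtain ⟨r, hr, hlog, hF⟩ := hyp lam B U d hU hUc hd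
  have hΦ := (horFlows g).hor 0
  obtain ⟨t, ht, -⟩ := hU.exists_t hΦ (fun i => hUc i i) hφ
  have hL : 0 < Lam := hl.trans_le hle
  obtain ⟨hJu, hJl⟩ := H129.jac_upper_lower hΦ hφ hl hL (fun f i j r => hU.ric f r i j)
    (fun f => hU.symm hΦ f) hU.lo hup ht
  obtain ⟨-, hpos, hint⟩ := integral_eq_of_entropy_eq (by norm_num : 2 ≤ 3) hφ hneg hμ hm heq
    t.continuous hJu hJl
  set h : ℝ := (topEntropy (φ 1)).toReal with hh
  have hut : Continuous fun f : Fr g => f.ut 0 := (isBdl_ut g).cont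
  -- the determinant is positive
  have hdpos : ∀ p, d p ≠ 0 := by
    intro p
    obtain ⟨f, rfl⟩ := exists_frame_ut p
    rw [hd]
    have h1 : ∀ x : Fin 2 → ℝ, 2 * lam * (x ⬝ᵥ x) ≤ x ⬝ᵥ ((U f + U (flipF f)) *ᵥ x) := by
      intro x
      rw [Matrix.add_mulVec, dotProduct_add]
      have := hU.lo f x
      have := hU.lo (flipF f) x
      linarith
    intro h0
    obtain ⟨x, hx, hx0⟩ := Matrix.exists_mulVec_eq_zero_iff.2 h0
    have h2 := h1 x
    rw [hx0, dotProduct_zero] at h2
    have h3 : 0 < x ⬝ᵥ x := by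
      have h4 : 0 ≤ x ⬝ᵥ x := by
        simp only [dotProduct, Fin.sum_univ_two]
        nlinarith [sq_nonneg (x 0), sq_nonneg (x 1)]
      rcases h4.lt_or_eq with h5 | h5
      · exact h5
      · exact absurd (dotProduct_self_eq_zero.1 h5.symm) hx
    nlinarith
  have hac : Continuous fun p => Real.exp (r p) / d p :=
    (Real.continuous_exp.comp hr).div d.continuous hdpos
  have hF2 := integral_le_of_sphAvg hμ hm hac (c := 1 / h) (by positivity) hF
  have hpush : ∀ a : UT g → ℝ, Continuous a → ∫ f : Fr g, a (f.ut 0) ∂mP = ∫ p, a p ∂m := by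
    intro a ha
    rw [← hP.ut.map_eq]
    exact (integral_map hP.ut.measurable.aemeasurable ha.aestronglyMeasurable).symm
  refine ⟨_, const_of_frames (mP := mP) hP.rot hU hUc (ρ := fun f => r (f.ut 0)) (hr.comp hut)
    (h := h) (fun f => ?_) ?_ ?_⟩
  · rw [← hd, hlog]
  · rw [← hint, ← hpush _ t.continuous]
    exact integral_congr_ae (Eventually.of_forall fun f => (ht f).symm)
  · refine le_trans (le_of_eq ?_) hF2
    rw [← hpush _ hac]
    exact integral_congr_ae (Eventually.of_forall fun f => by simp only [hd])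

end Vale.Agent.P207.N3.H546
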