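import Vale.Agent.P207.N3.H546.R21
import Vale.Agent.P207.N3.H158.NuC

/-!
# P207, line N3: Part A, case (i), assembly

`Flat` (662) and `Calib` (709, 12) at every base point, together with the mass inequality (646),
give constant curvature.
-/

open scoped Manifold ContDiff ENNReal Topology Matrix
open Bundle MeasureTheory Set Filter

set_option maxSynthPendingDepth 3
set_option linter.unusedSectionVars false

noncomputable section

namespace Vale.Agent.P207.N3.H546

open Vale.Agent.P255 (RMetric)
open Vale.Agent.P207 Vale.Agent.P207.Q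
open Vale.Agent.P207F (ConstCurvature)

section one

variable {Γ X B : Type} [Group Γ] [MetricSpace X] [ProperSpace X] [MulAction Γ X]
  [IsIsometricSMul Γ X] [TopologicalSpace B] [CompactSpace B] [T2Space B] [MulAction Γ B]
  [ContinuousConstSMul Γ B] [MeasurableSpace B] [BorelSpace B] {L : Leaf Γ X B} {A : Area L}

/-- the spherical average at one base point -/
theorem avg_le {a : ℝ} (hmass : ENNReal.ofReal (4 * Real.pi * a) ≤ A.ν univ)
    (F : H662.Flat L A) (C : H662.Calib L A) : a ≤ 1 / A.h := by
  have hh := A.h_pos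
  have h1 := hmass.trans (H158.nu_of_flat F C)
  rw [ENNReal.ofReal_le_ofReal_iff (by positivity)] at h1
  have h2 : 4 * Real.pi * a ≤ 4 * Real.pi * (1 / A.h) := by
    refine h1.trans (le_of_eq ?_)
    field_simp
  exact le_of_mul_le_mul_left h2 (by positivity)

end one

variable {M : Type} [TopologicalSpace M] [ChartedSpace (EV 3) M] [IsManifold 𝓘(ℝ, EV 3) ∞ M]
  [CompactSpace M] [T2Space M] {g : RMetric (EV 3) M} [Nonempty (Fr g)]

/-- **Part A, case (i).** -/
theorem partA_i [ConnectedSpace M] [MeasurableSpace M] [BorelSpace M] (hN : NegCurvature g)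
    {φ : ℝ → UT g → UT g} (hφ : IsGeoFlow g φ) {μ : Measure M} (hμ : IsRiemVol g μ)
    {m : Measure (UT g)} (hm : IsLiouville g μ m) (D : MDat g ((horFlows g).Φ 0)) {h : ℝ}
    (hh : 0 < h) (R : RDat D h)
    {Γ X B : Type} [Group Γ] [MetricSpace X] [ProperSpace X] [MulAction Γ X]
    [IsIsometricSMul Γ X] [TopologicalSpace B] [CompactSpace B] [T2Space B] [MulAction Γ B]
    [ContinuousConstSMul Γ B] [MeasurableSpace B] [BorelSpace B]
    {Q : Type} {pt : Q → M} (hpt : Function.Surjective pt)
    (L : Q → Leaf Γ X B) (A : ∀ o, Area (L o)) (hA : ∀ o, (A o).h = h)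
    (hmass : ∀ o, ENNReal.ofReal (4 * Real.pi *
      sphAvg g (fun v => Real.exp (R.r v) / D.S v) (pt o)) ≤ (A o).ν univ)
    (F : ∀ o, Nonempty (H662.Flat (L o) (A o))) (C : ∀ o, Nonempty (H662.Calib (L o) (A o))) :
    ∃ κ, ConstCurvature g κ := by
  refine const_of_mass hN hφ hμ hm D hh R fun p => ?_
  obtain ⟨o, rfl⟩ := hpt p
  exact (avg_le (hmass o) (F o).some (C o).some).trans (le_of_eq (by rw [hA o]))

end Vale.Agent.P207.N3.H546
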