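import Vale.Agent.P207.Q.H413.CoreRel
import Vale.Agent.P207.Q.H717.PPinchA
import Vale.Agent.P207.Q.H791.UDataW
import Vale.Agent.P207.N3.H546.FinRic

/-!
# P207, line N3: the continuous unstable Riccati tensor of a closed negatively curved 3-manifold

No pinching. `U` is a continuous matrix valued function on the frame bundle, symmetric, positive,
bounded, and solves the Riccati equation along the frame flow.
-/

open scoped Manifold ContDiff ENNReal Topology Matrix
open Bundle MeasureTheory Set Filter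

set_option maxSynthPendingDepth 3
set_option linter.unusedSectionVars false

noncomputable section

namespace Vale.Agent.P207.N3.H546

open Vale.Agent.P255 (RMetric coefIn Gam Riem IsGeo Metric trans coefL)
open Vale.Agent.P207 Vale.Agent.P207.Q Vale.Agent.P207.Q.H545 Vale.Agent.P207.Q.H892
open Vale.Agent.P207.Q.H413 Vale.Agent.P207.Q.H717
open Vale.Agent.P207.Q.H791 (RicC U0 U0_lower U0_upper U0_deriv U0_symm exists_KBase)
open Vale.Agent.P207.Q.H130 (IsUR Km)

variable {M : Type} [TopologicalSpace M] [ChartedSpace (EV 3) M] [IsManifold 𝓘(ℝ, EV 3) ∞ M]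
  [CompactSpace M] [T2Space M] {g : RMetric (EV 3) M}

section Fix

variable [Nonempty (Fr g)] {m : Measure (UT g)} {mP : Measure (Fr g)}
  {φ : ℝ → UT g → UT g} {hP : IsMP m mP} {hφ : IsGeoFlow g φ}
  {hmp : ∀ t, MeasurePreserving (φ t) m m}

/-- the unstable tensor in components, for every negatively curved metric -/
theorem exists_U3 [ConnectedSpace M] [MeasurableSpace M] [BorelSpace M]
    [SecondCountableTopology M] [IsProbabilityMeasure mP] [mP.IsOpenPosMeasure]
    (hneg : NegCurvature g) :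
    ∃ (lam Lam : ℝ) (U : Fin 2 → Fin 2 → C(Fr g, ℝ)), 0 < lam ∧ lam ≤ Lam ∧ U 1 0 = U 0 1 ∧
      (∀ f (x y : ℝ), lam * (x ^ 2 + y ^ 2) ≤
        U 0 0 f * x ^ 2 + 2 * U 0 1 f * (x * y) + U 1 1 f * y ^ 2) ∧
      (∀ f (x y : ℝ), U 0 0 f * x ^ 2 + 2 * U 0 1 f * (x * y) + U 1 1 f * y ^ 2 ≤
        Lam * (x ^ 2 + y ^ 2)) ∧
      ∀ i j f r, HasDerivAt (fun s => U i j ((horFlows g).Φ 0 s f))
        ((cK hP hφ hmp).K i j ((horFlows g).Φ 0 r f) -
          ∑ k, U i k ((horFlows g).Φ 0 r f) * U k j ((horFlows g).Φ 0 r f)) r := by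
  obtain ⟨lam, Lam, hl, hle, hb⟩ :=
    exists_bounds_of_neg (g := g) (i₀ := (0 : Fin 3)) (i₁ := 1) (by decide) hneg
  have hquad := fun f x y => quadratic_bounds hb f x y
  let H := horFlows g
  have klo : ∀ f (x y : ℝ), lam ^ 2 * (x ^ 2 + y ^ 2) ≤ (cK hP hφ hmp).K 0 0 f * x ^ 2 +
      2 * (cK hP hφ hmp).K 0 1 f * (x * y) + (cK hP hφ hmp).K 1 1 f * y ^ 2 := fun f x y => by
    rw [cK_K00, cK_K01, cK_K11]; linarith [(hquad f x y).1]
  have kup : ∀ f (x y : ℝ), (cK hP hφ hmp).K 0 0 f * x ^ 2 +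
      2 * (cK hP hφ hmp).K 0 1 f * (x * y) + (cK hP hφ hmp).K 1 1 f * y ^ 2 ≤
      Lam ^ 2 * (x ^ 2 + y ^ 2) := fun f x y => by
    rw [cK_K00, cK_K01, cK_K11]; linarith [(hquad f x y).2]
  obtain ⟨B, hK⟩ := exists_KBase (cK hP hφ hmp) (frTF H hP hφ hmp H.hcomp dense_SmFr) hl hle
    klo kup
  refine ⟨lam, Lam, U0 hK, hl, hle, U0_symm hK, U0_lower hK, U0_upper hK, ?_⟩
  intro i j f r
  have := U0_deriv hK i j f r
  rw [H183.coe_KS] at this
  exact this

end Fix

end Vale.Agent.P207.N3.H546
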